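import Vale.Agent.P263B92.Hur
import Vale.Agent.P263B15.Rows

/-!
# The rows HUR and LIFT, in the form of the specification
-/

namespace Vale.Agent.P263B92

open Vale.Agent.P263B15

theorem hur : HUR := fun _ _ x₀ _ _ h h2 =>
  two_of_h2 x₀ (by omega) (fun k hk => h k (by omega)) h2

theorem lift : LIFT := fun _ _ _ _ _ _ _ he _ hZ hF => two_of_fb he hZ hF

end Vale.Agent.P263B92
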