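import Vale.Agent.P263B92.Sph
import Vale.Agent.P263B15.Defs

/-!
# The rows HUR and LIFT
-/

open Topology Set Filter Metric OnePoint Vale.Agent.P246.T Vale.Agent.P246.T.FM

namespace Vale.Agent.P263B92

open Vale.Agent.P263.AD.Freu Vale.Agent.P178.H551 Vale.Agent.P263B15

variable {Z : Type} [TopologicalSpace Z] {z : Z} {n : ℕ}

theorem rel_of_bh {f g : C(Sp n, Z)} (hf : f ∞ = z) (h : BH z f g) : f.HomotopicRel g {∞} := by
  obtain ⟨H, h0, h1, h2⟩ := h
  refine ⟨⟨⟨H, h0, h1⟩, ?_⟩⟩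
  rintro t x rfl
  exact (h2 t).trans hf.symm

theorem bh_of_rel {f g : C(Sp n, Z)} (hf : f ∞ = z) (h : f.HomotopicRel g {∞}) : BH z f g := by
  obtain ⟨H⟩ := h
  exact ⟨H.toContinuousMap, fun x => H.apply_zero x, fun x => H.apply_one x,
    fun t => (H.eq_fst t (Set.mem_singleton (∞ : Sp n))).trans hf⟩

/-- connectivity from the vanishing of homology -/
theorem lft_of_rz [SimplyConnectedSpace Z] (z : Z) (m : ℕ) (h : ∀ k < m + 2, RZ Z k) :
    ∀ k < m + 2, LftS ({z} : Set Z) k :=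
  lft z m fun k hk c hc => h (k + 2) (by omega) c hc

/-- **Hurewicz**, the first non-trivial degree -/
theorem two_of_h2 [SimplyConnectedSpace Z] (z : Z) (hn : 2 ≤ n) (h : ∀ k < n, RZ Z k)
    (h2 : H2 Z n) : Two Z z n := by
  obtain ⟨m, rfl⟩ : ∃ m, n = m + 2 := ⟨n - 2, by omega⟩
  intro f g hf hg
  refine (three (lft_of_rz z m h) (fun c c' hc hc' => ?_) hf hg).imp (rel_of_bh hf)
    (Or.imp (rel_of_bh hg) (rel_of_bh hf))
  rcases h2 c c' hc hc' with ⟨b, hb⟩ | ⟨b, hb⟩ | ⟨b, hb⟩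
  · exact Or.inl ⟨b, by rw [hb, sub_zero]⟩
  · exact Or.inr (Or.inl ⟨b, by rw [hb, sub_zero]⟩)
  · exact Or.inr (Or.inr ⟨b, hb.symm⟩)

variable {B : Type} [TopologicalSpace B] {e : C(B, Z)} {b : B}

/-- the projection of the homotopy fibre -/
def prj (e : C(B, Z)) (z : Z) : C(Fb e z, B) := ⟨fun p => p.1.1, by fun_prop⟩

/-- a map which becomes null homotopic lifts to the homotopy fibre -/
theorem exists_lift (h : e b = z) {f : C(Sp n, B)} (hf : f ∞ = b)
    (H : C(I × Sp n, Z)) (h0 : ∀ x, H (0, x) = e (f x)) (h1 : ∀ x, H (1, x) = z)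
    (h2 : ∀ t, H (t, ∞) = z) :
    ∃ F : C(Sp n, Fb e z), F ∞ = Fb.pt h ∧ (prj e z).comp F = f := by
  let P : C(Sp n, PP z) := mkP (fun q => H (unitInterval.symm q.2, q.1))
    (H.continuous.comp ((unitInterval.continuous_symm.comp continuous_snd).prodMk continuous_fst))
    (fun p => by
      change H (unitInterval.symm 0, p) = z
      rw [unitInterval.symm_zero, h1])
  have hP : ∀ x, e (f x) = ev z (P x) := fun x => by
    change _ = H (unitInterval.symm 1, x)
    rw [unitInterval.symm_one, h0]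
  refine ⟨⟨fun x => ⟨(f x, P x), hP x⟩, Continuous.subtype_mk (f.continuous.prodMk P.continuous) _⟩,
    Subtype.ext (Prod.ext hf (pp_ext fun t => h2 _)), rfl⟩

/-- **LIFT** -/
theorem two_of_fb (h : e b = z) (hZ : PN Z z n) (hF : Two (Fb e z) (Fb.pt h) n) : Two B b n := by
  intro f g hf hg
  obtain ⟨H, h0, h1, h2⟩ := hZ (e.comp f) (by rw [ContinuousMap.comp_apply, hf, h])
  obtain ⟨H', h0', h1', h2'⟩ := hZ (e.comp g) (by rw [ContinuousMap.comp_apply, hg, h])
  obtain ⟨F, hF0, rfl⟩ := exists_lift h hf H h0 h1 h2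
  obtain ⟨G, hG0, rfl⟩ := exists_lift h hg H' h0' h1' h2'
  rcases hF F G hF0 hG0 with h3 | h3 | h3
  · exact Or.inl (h3.comp_continuousMap (prj e z))
  · exact Or.inr (Or.inl (h3.comp_continuousMap (prj e z)))
  · exact Or.inr (Or.inr (h3.comp_continuousMap (prj e z)))

end Vale.Agent.P263B92
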