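import Vale.Agent.P263.AD.FreuRH
import Vale.Agent.P178.H551.Hur4

/-!
# Based maps of spheres and their classes in the homotopy groups
-/

open Topology Set Filter Metric Vale.Agent.P246.T

namespace Vale.Agent.P263B92

open Vale.Agent.P263.AD.Freu Vale.Agent.P178.H551
open Vale.Agent.P093.T (openCube ELoop PiGrp cls_eq_iff cls_congr_fun cls_const)

variable {Z : Type} [TopologicalSpace Z] {z : Z} {n : ℕ}

/-- the collapse of the complement of the open cube -/
noncomputable def col (n : ℕ) : C(Fin n → ℝ, OnePoint (Fin n → ℝ)) :=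
  ⟨fun y => qD n (clp n fun i => 2 * y i - 1), (qD n).continuous.comp ((continuous_clp n).comp
    (by fun_prop))⟩

theorem norm_clp_of {y : Fin n → ℝ} (hy : y ∉ openCube n) :
    ‖((clp n fun i => 2 * y i - 1 : Dk n) : Fin n → ℝ)‖ = 1 := by
  obtain ⟨i, hi⟩ : ∃ i, ¬ (0 < y i ∧ y i < 1) := by
    by_contra h
    push Not at h
    exact hy fun i => h i
  refine le_antisymm (norm_le_one _) ?_
  refine le_trans ?_ (norm_le_pi_norm _ i)
  change 1 ≤ ‖max (-1 : ℝ) (min 1 (2 * y i - 1))‖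
  rw [Real.norm_eq_abs]
  by_cases h0 : y i ≤ 0
  · rw [min_eq_right (by linarith), max_eq_left (by linarith)]
    norm_num
  · have h1 : 1 ≤ y i := by
      by_contra h1
      exact hi ⟨not_le.1 h0, not_le.1 h1⟩
    rw [min_eq_left (by linarith), max_eq_right (by norm_num)]
    norm_num

theorem col_off {y : Fin n → ℝ} (hy : y ∉ openCube n) : col n y = OnePoint.infty :=
  qD_bd (norm_clp_of hy)

/-- from the cube `[-1, 1]^n` to the cube `[0, 1]^n` -/
noncomputable def half (x : Dk n) : Fin n → ℝ := fun i => ((x : Fin n → ℝ) i + 1) / 2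

theorem continuous_half : Continuous (half : Dk n → Fin n → ℝ) :=
  continuous_pi fun i => (((continuous_apply i).comp continuous_subtype_val).add
    continuous_const).div_const 2

theorem col_half (x : Dk n) : col n (half x) = qD n x := by
  refine congrArg (qD n) (Subtype.ext (funext fun i => ?_))
  have h1 : |(x : Fin n → ℝ) i| ≤ 1 := (norm_le_pi_norm (x : Fin n → ℝ) i).trans (norm_le_one x)
  obtain ⟨h2, h3⟩ := abs_le.1 h1
  change max (-1 : ℝ) (min 1 (2 * (((x : Fin n → ℝ) i + 1) / 2) - 1)) = (x : Fin n → ℝ) i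
  rw [show 2 * (((x : Fin n → ℝ) i + 1) / 2) - 1 = (x : Fin n → ℝ) i by ring, min_eq_right h3,
    max_eq_right h2]

theorem half_off {x : Dk n} (hx : ‖(x : Fin n → ℝ)‖ = 1) : half x ∉ openCube n := by
  intro h
  have h1 : ‖(x : Fin n → ℝ)‖ < 1 := by
    rw [pi_norm_lt_iff one_pos]
    intro i
    have h2 := h i
    simp only [half] at h2
    rw [Real.norm_eq_abs, abs_lt]
    constructor <;> linarith [h2.1, h2.2]
  exact h1.ne hx

/-- the loop of a based map of the sphere -/
noncomputable def sl (f : C(OnePoint (Fin n → ℝ), Z)) (hf : f OnePoint.infty = z) : ELoop n Z z :=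
  ⟨fun y => f (col n y), f.continuous.comp (col n).continuous, fun y hy => by rw [col_off hy, hf]⟩

theorem sl_apply (f : C(OnePoint (Fin n → ℝ), Z)) (hf : f OnePoint.infty = z) (y : Fin n → ℝ) :
    sl f hf y = f (col n y) := rfl

/-- based homotopic maps of the sphere -/
def BH (z : Z) (f g : C(OnePoint (Fin n → ℝ), Z)) : Prop :=
  ∃ H : C(I × OnePoint (Fin n → ℝ), Z), (∀ x, H (0, x) = f x) ∧ (∀ x, H (1, x) = g x) ∧
    ∀ t, H (t, OnePoint.infty) = z

theorem exists_bd (hn : 1 ≤ n) : ∃ y : Dk n, ‖(y : Fin n → ℝ)‖ = 1 := by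
  have : Nonempty (Fin n) := ⟨⟨0, hn⟩⟩
  have h1 : ‖(fun _ => 1 : Fin n → ℝ)‖ = 1 := by rw [pi_norm_const, norm_one]
  exact ⟨⟨fun _ => 1, by rw [mem_closedBall_zero_iff, h1]⟩, h1⟩

theorem bh_iff (hn : 1 ≤ n) {f g : C(OnePoint (Fin n → ℝ), Z)} (hf : f OnePoint.infty = z)
    (hg : g OnePoint.infty = z) : BH z f g ↔ (sl f hf).Homotopic (sl g hg) := by
  constructor
  · rintro ⟨H, h0, h1, h2⟩
    refine ⟨fun t y => H (Set.projIcc 0 1 zero_le_one t, col n y), H.continuous.comp
      ((continuous_projIcc.comp continuous_fst).prodMk ((col n).continuous.comp continuous_snd)),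
      fun y => ?_, fun y => ?_, fun t y hy => ?_⟩
    · have h : Set.projIcc (0 : ℝ) 1 zero_le_one 0 = 0 := Set.projIcc_left zero_le_one
      change H (Set.projIcc (0 : ℝ) 1 zero_le_one 0, col n y) = _
      rw [h, h0, sl_apply]
    · have h : Set.projIcc (0 : ℝ) 1 zero_le_one 1 = 1 := Set.projIcc_right zero_le_one
      change H (Set.projIcc (0 : ℝ) 1 zero_le_one 1, col n y) = _
      rw [h, h1, sl_apply]
    · change H (Set.projIcc (0 : ℝ) 1 zero_le_one t, col n y) = _
      rw [col_off hy, h2]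
  · rintro ⟨H, hc, h0, h1, h2⟩
    obtain ⟨G, hG⟩ := exists_descD hn (⟨fun q => H q.1 (half q.2), hc.comp
      (f := fun q : I × Dk n => ((q.1 : ℝ), half q.2)) ((continuous_subtype_val.comp
        continuous_fst).prodMk (continuous_half.comp continuous_snd))⟩ : C(I × Dk n, Z))
      (fun t x y hx hy => (h2 _ _ (half_off hx)).trans (h2 _ _ (half_off hy)).symm)
    refine ⟨G, fun x => ?_, fun x => ?_, fun t => ?_⟩
    · obtain ⟨y, rfl⟩ := qD_surjective hn x
      rw [hG]
      exact (h0 _).trans (by rw [sl_apply, col_half])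
    · obtain ⟨y, rfl⟩ := qD_surjective hn x
      rw [hG]
      exact (h1 _).trans (by rw [sl_apply, col_half])
    · obtain ⟨y, hy⟩ := exists_bd hn
      rw [← qD_bd hy, hG]
      exact h2 _ _ (half_off hy)

/-- every loop is the loop of a based map of the sphere -/
theorem exists_sl (hn : 1 ≤ n) (p : ELoop n Z z) :
    ∃ (f : C(OnePoint (Fin n → ℝ), Z)) (hf : f OnePoint.infty = z), ∀ y, sl f hf y = p y := by
  obtain ⟨G, hG⟩ := exists_descD hn (⟨fun q => p (half q.2), p.cont.comp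
    (continuous_half.comp continuous_snd)⟩ : C(I × Dk n, Z))
    (fun t x y hx hy => (p.off _ (half_off hx)).trans (p.off _ (half_off hy)).symm)
  have hf : G (0, OnePoint.infty) = z := by
    obtain ⟨y, hy⟩ := exists_bd hn
    rw [← qD_bd hy, hG]
    exact p.off _ (half_off hy)
  refine ⟨⟨fun x => G (0, x), by fun_prop⟩, hf, fun y => ?_⟩
  by_cases hy : y ∈ openCube n
  · change G (0, qD n (clp n fun i => 2 * y i - 1)) = _
    rw [hG]
    change p (half _) = _
    congr 1
    funext i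
    have h1 := hy i
    change (max (-1 : ℝ) (min 1 (2 * y i - 1)) + 1) / 2 = y i
    rw [min_eq_right (by linarith [h1.2]), max_eq_right (by linarith [h1.1])]
    ring
  · rw [p.off y hy, (sl _ hf).off y hy]

variable {m : ℕ}

theorem bh_iff_cls {f g : C(OnePoint (Fin (m + 2) → ℝ), Z)} (hf : f OnePoint.infty = z)
    (hg : g OnePoint.infty = z) : BH z f g ↔ (sl f hf).cls = (sl g hg).cls :=
  (bh_iff (by omega) hf hg).trans (cls_eq_iff _ _).symm

theorem cls_sl_const (h : ContinuousMap.const (OnePoint (Fin (m + 2) → ℝ)) z OnePoint.infty = z) :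
    (sl (ContinuousMap.const (OnePoint (Fin (m + 2) → ℝ)) z) h).cls = 0 :=
  (cls_congr_fun (ELoop.const (m + 2) z) _ fun _ => rfl).trans cls_const

theorem null_iff_cls {f : C(OnePoint (Fin (m + 2) → ℝ), Z)} (hf : f OnePoint.infty = z) :
    BH z f (ContinuousMap.const _ z) ↔ (sl f hf).cls = 0 := by
  have h : ContinuousMap.const (OnePoint (Fin (m + 2) → ℝ)) z OnePoint.infty = z := rfl
  rw [bh_iff_cls hf h, cls_sl_const h]

/-- **Hurewicz**: if the first non-trivial homology group has at most two elements, so has the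
first non-trivial homotopy group. -/
theorem three (h : ∀ k < m + 2, LftS ({z} : Set Z) k)
    (h2 : ∀ c c' : Ch (m + 2) Z, bd (m + 1) c = 0 → bd (m + 1) c' = 0 →
      (∃ b, c = bd (m + 2) b) ∨ (∃ b, c' = bd (m + 2) b) ∨ ∃ b, c - c' = bd (m + 2) b)
    {f g : C(OnePoint (Fin (m + 2) → ℝ), Z)} (hf : f OnePoint.infty = z)
    (hg : g OnePoint.infty = z) :
    BH z f (ContinuousMap.const _ z) ∨ BH z g (ContinuousMap.const _ z) ∨ BH z f g := by
  rw [null_iff_cls hf, null_iff_cls hg, bh_iff_cls hf hg]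
  obtain ⟨σ, hσ, e⟩ := exists_cls (sl f hf).cls
  obtain ⟨τ, hτ, e'⟩ := exists_cls (sl g hg).cls
  obtain ⟨ρ, hρ, e''⟩ := exists_cls ((sl f hf).cls - (sl g hg).cls)
  rcases h2 _ _ (hur_cyc hσ) (hur_cyc hτ) with ⟨b, hb⟩ | ⟨b, hb⟩ | ⟨b, hb⟩
  · exact Or.inl (e ▸ hur_inj h hσ hb)
  · exact Or.inr (Or.inl (e' ▸ hur_inj h hτ hb))
  · obtain ⟨b', hb'⟩ := add_hur ρ τ σ hρ hτ hσ (by rw [e, e', e'', sub_add_cancel])
    refine Or.inr (Or.inr (sub_eq_zero.1 (e'' ▸ hur_inj h hρ (b := b + b') ?_)))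
    rw [map_add, ← hb, ← hb']
    abel

end Vale.Agent.P263B92
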